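import Vale.Agent.P088.R2.H455.S4.SpecB
import Vale.Agent.P088.R2.H901.Dic
import Vale.Agent.P088.R2.H901.VecP
import Vale.Agent.P088.R2.H605.V.Bds

/-!
# P088, stage 4: the interior estimate for matrix functions of `(x, y)`

From `HY.rowINPG` by the real components.
-/

open MeasureTheory Set
open scoped ContDiff Matrix

noncomputable section

namespace Vale.Agent.P088.S4.H935

open Vale.Agent.P088.LR Vale.Agent.P088.LR.U Vale.Agent.P088.LR.H158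
open Vale.Agent.P088.PJ Vale.Agent.P088.PJ.H901 Vale.Agent.P088.PJ.H605
open Vale.Agent.P088.HY (VV dx dy)

variable {n N : ℕ}

/-- Bounds of the first order coefficients. -/
theorem bd_co (n N k : ℕ) : ∃ C δ₁ : ℝ, 0 < C ∧ 0 < δ₁ ∧ δ₁ ≤ 1 ∧ ∀ δ : ℝ, 0 ≤ δ → δ ≤ δ₁ →
    ∀ (Ω : Set (V n)) (s : MF n) (P : MC n N) (G : Fin n → MC n N), Da (k + 1) δ Ω s P G →
    (∀ x, IsUnit (P x).det) ∧ SmC (fun x => (P x)⁻¹) ∧ ClC k (C * δ) (fun x => (P x)⁻¹ - 1) ∧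
      (∀ j, SmC (bL s P G j)) ∧ (∀ j, SmC (bR s P G j)) ∧ (∀ j, ClC k (C * δ) (bL s P G j)) ∧
      ∀ j, ClC k (C * δ) (bR s P G j) := by
  obtain ⟨C₁, ε₁, hC₁, hε₁, hinv⟩ := H91.inv n N k
  obtain ⟨B, hB⟩ : ∃ B : ℝ, B = n * (2 ^ (k + 1) * 2 + 1) + n * (2 ^ k * 2) := ⟨_, rfl⟩
  have hB0 : 0 ≤ B := by rw [hB]; positivity
  obtain ⟨C, hC⟩ : ∃ C : ℝ, C = C₁ + N * (2 ^ k * (B * (1 + C₁))) := ⟨_, rfl⟩
  have hC0 : 0 < C := by rw [hC]; positivity
  refine ⟨C, min ε₁ 1, hC0, lt_min hε₁ one_pos, min_le_right _ _, ?_⟩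
  intro δ hδ0 hδ Ω s P G d
  have hδ1 : δ ≤ 1 := hδ.trans (min_le_right _ _)
  have cs : ∀ i j, Cl k δ (fun x => s x i j - (1 : Matrix (Fin n) (Fin n) ℝ) i j) :=
    fun i j => cl_le' (d.cs i j) (Nat.le_succ k) le_rfl
  have cP : ClC k δ (fun x => P x - 1) := clC_mono d.cP (Nat.le_succ k) le_rfl
  obtain ⟨hu, hi, hic⟩ := hinv P d.sP δ hδ0 (hδ.trans (min_le_left _ _)) cP
  have hic' : ClC k (1 + C₁) (fun x => (P x)⁻¹) := by
    refine clC_mono (clC_near hi hic) le_rfl ?_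
    have : C₁ * δ ≤ C₁ := mul_le_of_le_one_right hC₁.le hδ1
    linarith
  have hCle : C₁ * δ ≤ C * δ := by
    refine mul_le_mul_of_nonneg_right ?_ hδ0
    rw [hC]
    have : 0 ≤ N * (2 ^ k * (B * (1 + C₁))) := by positivity
    linarith
  have hT1 : ∀ i j, ClC k ((2 ^ (k + 1) * 2 + 1) * δ) (pdm i (TP s P i j)) := by
    intro i j
    have s1 : SmC (fun x => TP s P i j x - if i = j then 1 else 0) :=
      fun a b => (smC_TP d.ss d.sP i j a b).sub contDiff_const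
    have e1 := clC_pdm (k := k) s1 (clC_TP hδ1 d.ss d.cs d.sP d.cP i j) i
    rw [pdm_sub_const] at e1
    exact e1
  have hTs : ∀ j, SmC (fun x => ∑ i, pdm i (TP s P i j) x) := fun j =>
    smC_sum fun i => smC_pdm (smC_TP d.ss d.sP i j) i
  have hT : ∀ j, ClC k (n * ((2 ^ (k + 1) * 2 + 1) * δ)) (fun x => ∑ i, pdm i (TP s P i j) x) := by
    intro j
    have e1 := clC_sumc (k := k) (fun i => smC_pdm (smC_TP d.ss d.sP i j) i) (fun i => hT1 i j)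
    rwa [Fintype.card_fin] at e1
  have hks := smC_kp d.ss d.sG
  have hk : ∀ j, ClC k (n * (2 ^ k * 2) * δ) (kp s G j) := fun j =>
    clC_kp hδ1 d.ss cs d.sG (fun i => clC_mono (d.cG i) (Nat.le_succ k) le_rfl) j
  have hBδ : n * ((2 ^ (k + 1) * 2 + 1) * δ) + n * (2 ^ k * 2) * δ = B * δ := by
    rw [hB]
    ring
  have hCB : N * (2 ^ k * ((1 + C₁) * (B * δ))) ≤ C * δ := by
    have : C * δ = C₁ * δ + N * (2 ^ k * ((1 + C₁) * (B * δ))) := by
      rw [hC]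
      ring
    rw [this]
    have : 0 ≤ C₁ * δ := by positivity
    linarith
  refine ⟨hu, hi, clC_mono hic le_rfl hCle, ?_, ?_, ?_, ?_⟩
  · exact fun j => SmC_mul hi (smC_add (hTs j) (hks j))
  · exact fun j => SmC_mul (smC_sub (hTs j) (hks j)) hi
  · intro j
    have e1 := clC_mul hi (smC_add (hTs j) (hks j)) hic' (clC_add (hTs j) (hks j) (hT j) (hk j))
    rw [hBδ] at e1
    exact clC_mono e1 le_rfl hCB
  · intro j
    have e1 := clC_mul (smC_sub (hTs j) (hks j)) hi (clC_sub (hTs j) (hks j) (hT j) (hk j)) hic'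
    rw [hBδ] at e1
    refine clC_mono e1 le_rfl ?_
    rw [mul_comm (B * δ)]
    exact hCB

theorem itv1 {f : VV n → ℝ} {z : VV n} (v : VV n) (hv : ‖v‖ ≤ 1) :
    |fderiv ℝ f z v| ≤ ‖iteratedFDeriv ℝ 1 f z‖ := by
  have h := (iteratedFDeriv ℝ 1 f z).le_opNorm ![v]
  rw [iteratedFDeriv_one_apply] at h
  simp only [Matrix.cons_val_zero, Real.norm_eq_abs] at h
  refine h.trans ?_
  rw [Fin.prod_univ_one]
  exact mul_le_of_le_one_right (norm_nonneg _) hv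

theorem itv2 {O : Set (VV n)} (hO : IsOpen O) {f : VV n → ℝ} (hf : ContDiffOn ℝ ∞ f O) {z : VV n}
    (hz : z ∈ O) (v w : VV n) (hv : ‖v‖ ≤ 1) (hw : ‖w‖ ≤ 1) :
    |fderiv ℝ (fun z => fderiv ℝ f z w) z v| ≤ ‖iteratedFDeriv ℝ 2 f z‖ := by
  have h := (iteratedFDeriv ℝ 2 f z).le_opNorm ![v, w]
  rw [iteratedFDeriv_two_apply] at h
  have hd : DifferentiableAt ℝ (fderiv ℝ f) z :=
    ((hf.contDiffAt (hO.mem_nhds hz)).fderiv_right (m := ∞) (by simp)).differentiableAt (by simp)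
  have e : fderiv ℝ (fun z => fderiv ℝ f z w) z v = fderiv ℝ (fderiv ℝ f) z v w := by
    rw [fderiv_clm_apply hd (differentiableAt_const _)]
    simp
  simp only [Matrix.cons_val_zero, Matrix.cons_val_one, Real.norm_eq_abs] at h
  rw [e]
  refine h.trans ?_
  rw [Fin.prod_univ_two]
  simp only [Matrix.cons_val_zero, Matrix.cons_val_one]
  exact mul_le_of_le_one_right (norm_nonneg _) (mul_le_one₀ hv (norm_nonneg _) hw)

theorem nvx (i : Fin n) : ‖((Pi.single i 1, 0) : VV n)‖ ≤ 1 := by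
  simp [Prod.norm_def, Pi.norm_single]

theorem nvy (i : Fin n) : ‖((0, Pi.single i 1) : VV n)‖ ≤ 1 := by
  simp [Prod.norm_def, Pi.norm_single]

/-- An entry is bounded by the real components. -/
theorem ent_le {K : KC n N} {z : VV n} {B : ℝ} (h : ∀ q, |vec K q z| ≤ B) (a b : Fin N) :
    ‖K z a b‖ ≤ 2 * B := by
  have h0 := h (eqv N (a, b, 0))
  have h1 := h (eqv N (a, b, 1))
  simp only [vec, Equiv.symm_apply_apply] at h0 h1
  have e0 : cm 0 (K z a b) = (K z a b).re := by simp [cm]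
  have e1 : cm 1 (K z a b) = (K z a b).im := by simp [cm]
  rw [e0] at h0
  rw [e1] at h1
  calc ‖K z a b‖ ≤ |(K z a b).re| + |(K z a b).im| := Complex.norm_le_abs_re_add_abs_im _
    _ ≤ 2 * B := by linarith

theorem nqK_nn (A : Matrix (Fin N) (Fin N) ℂ) : 0 ≤ nq A :=
  Finset.sum_nonneg fun _ _ => Finset.sum_nonneg fun _ _ => sq_nonneg _

theorem nqK_cont {O : Set (VV n)} {K : KC n N} (hK : SmK O K) :
    ContinuousOn (fun z => nq (K z)) O := by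
  unfold nq
  exact continuousOn_finsetSum _ fun a _ => continuousOn_finsetSum _ fun b _ =>
    ((hK a b).continuousOn.norm).pow 2

/-- The interior estimate for the real components of a matrix function. -/
theorem intV (n N : ℕ) : ∃ (k : ℕ) (ε C : ℝ), 0 < ε ∧ 0 < C ∧ ∀ (s₁ s₂ : MF n)
    (β₁ β₂ : Fin n → MC n N), SmM s₁ → SmM s₂ →
    (∀ i j, Cl k ε (fun x => s₁ x i j - (1 : Matrix (Fin n) (Fin n) ℝ) i j)) →
    (∀ i j, Cl k ε (fun x => s₂ x i j - (1 : Matrix (Fin n) (Fin n) ℝ) i j)) →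
    (∀ i, SmC (β₁ i)) → (∀ i, SmC (β₂ i)) → (∀ i, ClC k 1 (β₁ i)) → (∀ i, ClC k 1 (β₂ i)) →
    ∀ (p : VV n) (r : ℝ), 0 < r → r ≤ 1 → ∀ K : KC n N, SmK (Metric.ball p (2 * r)) K →
    ∀ M : ℝ, (∀ l ≤ k, ∀ z ∈ Metric.ball p (2 * r), ∀ a b,
      ‖iteratedFDeriv ℝ l (fun z => (Lk s₁ β₁ K z + Rk s₂ β₂ K z) a b) z‖ * r ^ l ≤ M) →
    ∀ q, ∀ l ≤ 2, ‖iteratedFDeriv ℝ l (vec K q) p‖ * r ^ l ≤
      C * (√(∫ z in Metric.ball p r, nq (K z)) / r ^ n + r ^ 2 * M) := by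
  obtain ⟨k, ε, hε, hI⟩ := HY.rowINPG n (mm N)
  obtain ⟨C, hC, hI⟩ := hI 1 one_pos
  refine ⟨k, ε, C * 2 ^ (n + 2), hε, by positivity, ?_⟩
  intro s₁ s₂ β₁ β₂ m₁ m₂ c₁ c₂ sb₁ sb₂ cb₁ cb₂ p r hr hr1 K hK M hM q l hl
  have hsub : Metric.ball p r ⊆ Metric.ball p (2 * r) := Metric.ball_subset_ball (by linarith)
  have hcs : Metric.closedBall p r ⊆ Metric.ball p (2 * r) :=
    Metric.closedBall_subset_ball (by linarith)
  have hKb : SmK (Metric.ball p r) K := fun a b => (hK a b).mono hsub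
  have hbo : IsOpen (Metric.ball p r) := Metric.isOpen_ball
  have hM0 : 0 ≤ M := by
    have h0 := hM 0 (Nat.zero_le _) p (Metric.mem_ball_self (by linarith))
      ((eqv N).symm q).1 ((eqv N).symm q).2.1
    exact (by positivity : (0 : ℝ) ≤ _).trans h0
  have hlr : 2 / (2 / r) = r := by field_simp
  have hlam : 1 ≤ 2 / r := by
    rw [le_div_iff₀ hr]
    linarith
  have hFs : SmK (Metric.ball p r) (fun z => Lk s₁ β₁ K z + Rk s₂ β₂ K z) := by
    intro a b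
    have sx : ∀ i j, ContDiffOn ℝ ∞ (fun z : VV n => s₁ z.1 i j) (Metric.ball p r) :=
      fun i j => ((m₁ i j).comp contDiff_fst).contDiffOn
    have sy : ∀ i j, ContDiffOn ℝ ∞ (fun z : VV n => s₂ z.2 i j) (Metric.ball p r) :=
      fun i j => ((m₂ i j).comp contDiff_snd).contDiffOn
    have e : (fun z => (Lk s₁ β₁ K z + Rk s₂ β₂ K z) a b) = fun z =>
        (∑ i, ∑ j, (s₁ z.1 i j : ℂ) * dxk i (dxk j K) z a b +
          ∑ i, ∑ c, β₁ i z.1 a c * dxk i K z c b) +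
        (∑ i, ∑ j, (s₂ z.2 i j : ℂ) * dyk i (dyk j K) z a b +
          ∑ i, ∑ c, dyk i K z a c * β₂ i z.2 c b) := by
      funext z
      simp only [Lk, Rk, Matrix.add_apply, Matrix.sum_apply, Matrix.smul_apply, smul_eq_mul,
        Matrix.mul_apply]
    rw [e]
    refine ContDiffOn.add (ContDiffOn.add ?_ ?_) (ContDiffOn.add ?_ ?_)
    · exact ContDiffOn.sum fun i _ => ContDiffOn.sum fun j _ =>
        (Complex.ofRealCLM.contDiff.comp_contDiffOn (sx i j)).mul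
          (SmK_dxk hbo (SmK_dxk hbo hKb j) i a b)
    · exact ContDiffOn.sum fun i _ => ContDiffOn.sum fun c _ =>
        ((sb₁ i a c).comp contDiff_fst).contDiffOn.mul (SmK_dxk hbo hKb i c b)
    · exact ContDiffOn.sum fun i _ => ContDiffOn.sum fun j _ =>
        (Complex.ofRealCLM.contDiff.comp_contDiffOn (sy i j)).mul
          (SmK_dyk hbo (SmK_dyk hbo hKb j) i a b)
    · exact ContDiffOn.sum fun i _ => ContDiffOn.sum fun c _ =>
        (SmK_dyk hbo hKb i a c).mul ((sb₂ i c b).comp contDiff_snd).contDiffOn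
  have hnc : ContinuousOn (fun z => nq (K z)) (Metric.closedBall p r) :=
    (nqK_cont hK).mono hcs
  have hni : IntegrableOn (fun z => nq (K z)) (Metric.ball p r) :=
    (hnc.integrableOn_compact (isCompact_closedBall p r)).mono_set Metric.ball_subset_closedBall
  have e1 : ∀ q, IntegrableOn (fun z => vec K q z ^ 2) (Metric.ball p r) := by
    intro q
    refine Integrable.mono' hni
      (((vec_cd hKb q).continuousOn.pow 2).aestronglyMeasurable hbo.measurableSet)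
      (ae_of_all _ fun z => ?_)
    rw [Real.norm_of_nonneg (sq_nonneg _), ← vec_sq]
    exact Finset.single_le_sum (f := fun q => vec K q z ^ 2) (fun _ _ => sq_nonneg _)
      (Finset.mem_univ q)
  have e2 : ∑ q, ∫ z in Metric.ball p r, vec K q z ^ 2 = ∫ z in Metric.ball p r, nq (K z) := by
    rw [← integral_finsetSum _ fun q _ => e1 q]
    simp only [vec_sq]
  have key := hI s₁ s₂ (coL β₁) (coR β₂) m₁ m₂ c₁ c₂
    (coL_ok zero_le_one zero_le_one sb₁ cb₁) (coR_ok zero_le_one zero_le_one sb₂ cb₂) p (2 / r)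
    hlam (vec K) (vec fun z => Lk s₁ β₁ K z + Rk s₂ β₂ K z)
    (by rw [hlr]; exact fun q => vec_cd hKb q) (by rw [hlr]; exact fun q => vec_cd hFs q)
    (by
      rw [hlr]
      intro z hz q
      rw [vec_Lk hbo hKb hz, vec_Rk hbo hKb hz]
      simp only [vec, Matrix.add_apply, map_add]) (by rw [hlr]; exact e1) M (by
      rw [hlr]
      intro q l hl z hz
      have hrl : 0 < r ^ l := pow_pos hr l
      have h3 : ∀ a b, ‖iteratedFDeriv ℝ l (fun z => (Lk s₁ β₁ K z + Rk s₂ β₂ K z) a b) z‖ ≤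
          M * (2 / r) ^ l := by
        intro a b
        have h4 := hM l hl z (hsub hz) a b
        rw [← le_div_iff₀ hrl] at h4
        refine h4.trans ?_
        rw [div_pow, mul_div_assoc', div_le_div_iff_of_pos_right hrl]
        exact le_mul_of_one_le_right hM0 (one_le_pow₀ (by norm_num))
      exact vec_it (fun a b => (hFs a b).contDiffAt (hbo.mem_nhds hz)) h3 q) q l hl
  rw [hlr, e2] at key
  have hrl : 0 < r ^ l := pow_pos hr l
  have h5 := mul_le_mul_of_nonneg_right key hrl.le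
  refine h5.trans ?_
  set A : ℝ := √(∫ z in Metric.ball p r, nq (K z)) with hA
  have hA0 : 0 ≤ A := Real.sqrt_nonneg _
  have h6 : C * ((2 / r) ^ (n + l) * A + M * (2 / r) ^ l / (2 / r) ^ 2) * r ^ l =
      C * (2 ^ (n + l) * (A / r ^ n) + 2 ^ l / 4 * (r ^ 2 * M)) := by
    rw [div_pow, div_pow, div_pow, pow_add r n l]
    field_simp
    ring
  rw [h6, mul_assoc]
  refine mul_le_mul_of_nonneg_left ?_ hC.le
  have h7 : (2 : ℝ) ^ (n + l) ≤ 2 ^ (n + 2) := pow_le_pow_right₀ (by norm_num) (by omega)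
  have h8 : (2 : ℝ) ^ l / 4 ≤ 2 ^ (n + 2) := by
    have h9 : (2 : ℝ) ^ l ≤ 2 ^ (n + 2) := pow_le_pow_right₀ (by norm_num) (by omega)
    have h10 : (0 : ℝ) ≤ 2 ^ (n + 2) := by positivity
    linarith
  have h11 : 0 ≤ A / r ^ n := by positivity
  have h12 : 0 ≤ r ^ 2 * M := by positivity
  rw [mul_add]
  exact add_le_add (mul_le_mul_of_nonneg_right h7 h11) (mul_le_mul_of_nonneg_right h8 h12)

/-- The interior estimate for a matrix function. -/
theorem intK (n N : ℕ) : ∃ (k : ℕ) (ε C : ℝ), 0 < ε ∧ 0 < C ∧ ∀ (s₁ s₂ : MF n)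
    (β₁ β₂ : Fin n → MC n N), SmM s₁ → SmM s₂ →
    (∀ i j, Cl k ε (fun x => s₁ x i j - (1 : Matrix (Fin n) (Fin n) ℝ) i j)) →
    (∀ i j, Cl k ε (fun x => s₂ x i j - (1 : Matrix (Fin n) (Fin n) ℝ) i j)) →
    (∀ i, SmC (β₁ i)) → (∀ i, SmC (β₂ i)) → (∀ i, ClC k 1 (β₁ i)) → (∀ i, ClC k 1 (β₂ i)) →
    ∀ (p : VV n) (r : ℝ), 0 < r → r ≤ 1 → ∀ K : KC n N, SmK (Metric.ball p (2 * r)) K →
    ∀ M : ℝ, (∀ l ≤ k, ∀ z ∈ Metric.ball p (2 * r), ∀ a b,
      ‖iteratedFDeriv ℝ l (fun z => (Lk s₁ β₁ K z + Rk s₂ β₂ K z) a b) z‖ * r ^ l ≤ M) →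
    ∀ a b, (∀ i j, r ^ 2 * ‖dxk i (dyk j K) p a b‖ ≤
        C * (√(∫ z in Metric.ball p r, nq (K z)) / r ^ n + r ^ 2 * M)) ∧
      (∀ i, r * ‖dxk i K p a b‖ ≤
        C * (√(∫ z in Metric.ball p r, nq (K z)) / r ^ n + r ^ 2 * M)) ∧
      (∀ i, r * ‖dyk i K p a b‖ ≤
        C * (√(∫ z in Metric.ball p r, nq (K z)) / r ^ n + r ^ 2 * M)) ∧
      ‖K p a b‖ ≤ C * (√(∫ z in Metric.ball p r, nq (K z)) / r ^ n + r ^ 2 * M) := by
  obtain ⟨k, ε, C, hε, hC, h⟩ := intV n N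
  refine ⟨k, ε, 2 * C, hε, by positivity, ?_⟩
  intro s₁ s₂ β₁ β₂ m₁ m₂ c₁ c₂ sb₁ sb₂ cb₁ cb₂ p r hr hr1 K hK M hM a b
  have key := h s₁ s₂ β₁ β₂ m₁ m₂ c₁ c₂ sb₁ sb₂ cb₁ cb₂ p r hr hr1 K hK M hM
  set A : ℝ := √(∫ z in Metric.ball p r, nq (K z)) / r ^ n + r ^ 2 * M with hA
  have hbo : IsOpen (Metric.ball p (2 * r)) := Metric.isOpen_ball
  have hp : p ∈ Metric.ball p (2 * r) := Metric.mem_ball_self (by linarith)
  have hr2 : 0 < r ^ 2 := by positivity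
  refine ⟨fun i j => ?_, fun i => ?_, fun i => ?_, ?_⟩
  · have h1 : ∀ q, |vec (dxk i (dyk j K)) q p| ≤ C * A / r ^ 2 := by
      intro q
      rw [← dxy_vec hbo hK hp i j q, le_div_iff₀ hr2]
      exact (mul_le_mul_of_nonneg_right (itv2 hbo (vec_cd hK q) hp _ _ (nvx i) (nvy j))
        hr2.le).trans (key q 2 le_rfl)
    have h2 := ent_le h1 a b
    calc r ^ 2 * ‖dxk i (dyk j K) p a b‖ ≤ r ^ 2 * (2 * (C * A / r ^ 2)) :=
          mul_le_mul_of_nonneg_left h2 hr2.le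
      _ = 2 * C * A := by field_simp
  · have h1 : ∀ q, |vec (dxk i K) q p| ≤ C * A / r := by
      intro q
      rw [← dx_vec hbo hK hp i q, le_div_iff₀ hr]
      have h3 := key q 1 (by norm_num)
      rw [pow_one] at h3
      exact (mul_le_mul_of_nonneg_right (itv1 _ (nvx i)) hr.le).trans h3
    have h2 := ent_le h1 a b
    calc r * ‖dxk i K p a b‖ ≤ r * (2 * (C * A / r)) := mul_le_mul_of_nonneg_left h2 hr.le
      _ = 2 * C * A := by field_simp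
  · have h1 : ∀ q, |vec (dyk i K) q p| ≤ C * A / r := by
      intro q
      rw [← dy_vec hbo hK hp i q, le_div_iff₀ hr]
      have h3 := key q 1 (by norm_num)
      rw [pow_one] at h3
      exact (mul_le_mul_of_nonneg_right (itv1 _ (nvy i)) hr.le).trans h3
    have h2 := ent_le h1 a b
    calc r * ‖dyk i K p a b‖ ≤ r * (2 * (C * A / r)) := mul_le_mul_of_nonneg_left h2 hr.le
      _ = 2 * C * A := by field_simp
  · have h1 : ∀ q, |vec K q p| ≤ C * A := by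
      intro q
      have h3 := key q 0 (by norm_num)
      rw [pow_zero, mul_one, norm_iteratedFDeriv_zero, Real.norm_eq_abs] at h3
      exact h3
    have h2 := ent_le h1 a b
    linarith

/-- **IntN**, the interior estimate for the data of two pairs. -/
theorem intN (n N : ℕ) : ∃ (k : ℕ) (ε C : ℝ), 0 < ε ∧ 0 ≤ C ∧ ∀ (d : PD n N) (G : Set (V n)),
    NrmN k ε d G → ∀ (p : VV n) (r : ℝ), 0 < r → r ≤ 1 → ∀ K : KC n N,
    SmK (Metric.ball p (2 * r)) K → ∀ M : ℝ,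
    (∀ l ≤ k, ∀ z ∈ Metric.ball p (2 * r), ∀ a b,
      ‖iteratedFDeriv ℝ l (fun z => (LxK d K z + RyK d K z) a b) z‖ * r ^ l ≤ M) →
    ∀ a b, (∀ i j, r ^ 2 * ‖dxk i (dyk j K) p a b‖ ≤
        C * (√(∫ z in Metric.ball p r, nq (K z)) / r ^ n + r ^ 2 * M)) ∧
      (∀ i, r * ‖dxk i K p a b‖ ≤
        C * (√(∫ z in Metric.ball p r, nq (K z)) / r ^ n + r ^ 2 * M)) ∧
      (∀ i, r * ‖dyk i K p a b‖ ≤
        C * (√(∫ z in Metric.ball p r, nq (K z)) / r ^ n + r ^ 2 * M)) ∧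
      ‖K p a b‖ ≤ C * (√(∫ z in Metric.ball p r, nq (K z)) / r ^ n + r ^ 2 * M) := by
  obtain ⟨k, ε, C, hε, hC, h⟩ := intK n N
  obtain ⟨C₁, δ₁, hC₁, hδ₁, hδ1, hco⟩ := bd_co n N k
  refine ⟨k + 1, min (min ε 1) (min δ₁ (1 / C₁)), C, by positivity, hC.le, ?_⟩
  intro d G hN
  have a1 : min (min ε 1) (min δ₁ (1 / C₁)) ≤ ε := (min_le_left _ _).trans (min_le_left _ _)
  have a2 : min (min ε 1) (min δ₁ (1 / C₁)) ≤ 1 := (min_le_left _ _).trans (min_le_right _ _)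
  have a3 : min (min ε 1) (min δ₁ (1 / C₁)) ≤ δ₁ := (min_le_right _ _).trans (min_le_left _ _)
  have a4 : min (min ε 1) (min δ₁ (1 / C₁)) ≤ 1 / C₁ := (min_le_right _ _).trans (min_le_right _ _)
  have a0 : 0 ≤ min (min ε 1) (min δ₁ (1 / C₁)) := by positivity
  have hr := hN.rp.rl
  obtain ⟨-, -, -, -, b2s, -, b2c⟩ := hco _ a0 a3 _ _ _ _ hr.d₂
  have a5 : C₁ * min (min ε 1) (min δ₁ (1 / C₁)) ≤ 1 := by
    rw [le_div_iff₀ hC₁] at a4
    linarith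
  intro p r hr0 hr1 K hK M hM
  exact h d.s₁ d.s₂ d.β (b2 d) hr.d₁.ss hr.d₂.ss
    (fun i j => cl_le' (hr.d₁.cs i j) (Nat.le_succ k) a1)
    (fun i j => cl_le' (hr.d₂.cs i j) (Nat.le_succ k) a1) hr.sβ b2s
    (fun i => clC_mono (hr.cβ i) (Nat.le_succ k) a2) (fun i => clC_mono (b2c i) le_rfl a5)
    p r hr0 hr1 K hK M fun l hl => hM l (hl.trans (Nat.le_succ k))

/-- The jets of a complex function from those of its real and imaginary part. -/
theorem ifd_ri {f : VV n → ℂ} {z : VV n} (hf : ContDiffAt ℝ ∞ f z) {l : ℕ} {B : ℝ}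
    (h0 : ‖iteratedFDeriv ℝ l (fun z => cm 0 (f z)) z‖ ≤ B)
    (h1 : ‖iteratedFDeriv ℝ l (fun z => cm 1 (f z)) z‖ ≤ B) :
    ‖iteratedFDeriv ℝ l f z‖ ≤ 2 * B := by
  let L0 : ℝ →L[ℝ] ℂ := Complex.ofRealCLM
  let L1 : ℝ →L[ℝ] ℂ := (Complex.I : ℂ) • Complex.ofRealCLM
  have n0 : ‖L0‖ ≤ 1 := by
    show ‖Complex.ofRealCLM‖ ≤ 1
    rw [Complex.ofRealCLM_norm]
  have n1 : ‖L1‖ ≤ 1 := by
    show ‖(Complex.I : ℂ) • Complex.ofRealCLM‖ ≤ 1
    rw [norm_smul, Complex.ofRealCLM_norm, Complex.norm_I, mul_one]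
  have c0 : ContDiffAt ℝ ∞ (fun z => cm 0 (f z)) z := (cm 0).contDiff.contDiffAt.comp z hf
  have c1 : ContDiffAt ℝ ∞ (fun z => cm 1 (f z)) z := (cm 1).contDiff.contDiffAt.comp z hf
  have e : f = fun z => L0 (cm 0 (f z)) + L1 (cm 1 (f z)) := by
    funext z
    have e0 : cm 0 (f z) = (f z).re := by simp [cm]
    have e1 : cm 1 (f z) = (f z).im := by simp [cm]
    rw [e0, e1]
    show f z = ((f z).re : ℂ) + Complex.I • (((f z).im : ℝ) : ℂ)
    rw [smul_eq_mul, mul_comm, Complex.re_add_im]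
  have hle : (l : WithTop ℕ∞) ≤ ∞ := by exact_mod_cast le_top
  have d0 : ContDiffAt ℝ l (fun z => L0 (cm 0 (f z))) z :=
    (L0.contDiff.contDiffAt.comp z c0).of_le hle
  have d1 : ContDiffAt ℝ l (fun z => L1 (cm 1 (f z))) z :=
    (L1.contDiff.contDiffAt.comp z c1).of_le hle
  rw [e]
  have e2 : iteratedFDeriv ℝ l (fun z => L0 (cm 0 (f z)) + L1 (cm 1 (f z))) z =
      iteratedFDeriv ℝ l (fun z => L0 (cm 0 (f z))) z +
        iteratedFDeriv ℝ l (fun z => L1 (cm 1 (f z))) z := iteratedFDeriv_add_apply d0 d1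
  rw [e2]
  refine (norm_add_le _ _).trans ?_
  have f0 : ‖iteratedFDeriv ℝ l (fun z => L0 (cm 0 (f z))) z‖ ≤ B := by
    have h := ContinuousLinearMap.norm_iteratedFDeriv_comp_left L0 c0 hle
    exact (h.trans (mul_le_of_le_one_left (norm_nonneg _) n0)).trans h0
  have f1 : ‖iteratedFDeriv ℝ l (fun z => L1 (cm 1 (f z))) z‖ ≤ B := by
    have h := ContinuousLinearMap.norm_iteratedFDeriv_comp_left L1 c1 hle
    exact (h.trans (mul_le_of_le_one_left (norm_nonneg _) n1)).trans h1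
  linarith

/-- The interior estimate in terms of `lam`. -/
theorem intKL (n N : ℕ) : ∃ (k : ℕ) (ε C : ℝ), 0 < ε ∧ 0 < C ∧ ∀ (s₁ s₂ : MF n)
    (β₁ β₂ : Fin n → MC n N), SmM s₁ → SmM s₂ →
    (∀ i j, Cl k ε (fun x => s₁ x i j - (1 : Matrix (Fin n) (Fin n) ℝ) i j)) →
    (∀ i j, Cl k ε (fun x => s₂ x i j - (1 : Matrix (Fin n) (Fin n) ℝ) i j)) →
    (∀ i, SmC (β₁ i)) → (∀ i, SmC (β₂ i)) → (∀ i, ClC k 1 (β₁ i)) → (∀ i, ClC k 1 (β₂ i)) →
    ∀ (z₀ : VV n) (lam : ℝ), 1 ≤ lam → ∀ K F : KC n N, SmK (Metric.ball z₀ (2 / lam)) K →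
    SmK (Metric.ball z₀ (2 / lam)) F →
    (∀ z ∈ Metric.ball z₀ (2 / lam), Lk s₁ β₁ K z + Rk s₂ β₂ K z = F z) →
    IntegrableOn (fun z => nq (K z)) (Metric.ball z₀ (2 / lam)) → ∀ B : ℝ,
    (∀ a b, ∀ l ≤ k, ∀ z ∈ Metric.ball z₀ (2 / lam),
      ‖iteratedFDeriv ℝ l (fun z => F z a b) z‖ ≤ B * lam ^ l) →
    ∀ a b, ∀ l ≤ 2, ‖iteratedFDeriv ℝ l (fun z => K z a b) z₀‖ ≤
      C * (lam ^ (n + l) * √(∫ z in Metric.ball z₀ (2 / lam), nq (K z)) + B * lam ^ l / lam ^ 2)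
      := by
  obtain ⟨k, ε, hε, hI⟩ := HY.rowINPG n (mm N)
  obtain ⟨C, hC, hI⟩ := hI 1 one_pos
  refine ⟨k, ε, 2 * C, hε, by positivity, ?_⟩
  intro s₁ s₂ β₁ β₂ m₁ m₂ c₁ c₂ sb₁ sb₂ cb₁ cb₂ z₀ lam hlam K F hK hF hE hni B hB a b l hl
  have hl0 : 0 < lam := by linarith
  have hbo : IsOpen (Metric.ball z₀ (2 / lam)) := Metric.isOpen_ball
  have hz0 : z₀ ∈ Metric.ball z₀ (2 / lam) := Metric.mem_ball_self (by positivity)
  have e1 : ∀ q, IntegrableOn (fun z => vec K q z ^ 2) (Metric.ball z₀ (2 / lam)) := by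
    intro q
    refine Integrable.mono' hni
      (((vec_cd hK q).continuousOn.pow 2).aestronglyMeasurable hbo.measurableSet)
      (ae_of_all _ fun z => ?_)
    rw [Real.norm_of_nonneg (sq_nonneg _), ← vec_sq]
    exact Finset.single_le_sum (f := fun q => vec K q z ^ 2) (fun _ _ => sq_nonneg _)
      (Finset.mem_univ q)
  have e2 : ∑ q, ∫ z in Metric.ball z₀ (2 / lam), vec K q z ^ 2 =
      ∫ z in Metric.ball z₀ (2 / lam), nq (K z) := by
    rw [← integral_finsetSum _ fun q _ => e1 q]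
    simp only [vec_sq]
  have key := hI s₁ s₂ (coL β₁) (coR β₂) m₁ m₂ c₁ c₂
    (coL_ok zero_le_one zero_le_one sb₁ cb₁) (coR_ok zero_le_one zero_le_one sb₂ cb₂) z₀ lam
    hlam (vec K) (vec F) (fun q => vec_cd hK q) (fun q => vec_cd hF q) (by
      intro z hz q
      rw [vec_Lk hbo hK hz, vec_Rk hbo hK hz]
      simp only [vec, ← hE z hz, Matrix.add_apply, map_add]) e1 B (by
      intro q l hl z hz
      exact vec_it (fun a b => (hF a b).contDiffAt (hbo.mem_nhds hz))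
        (fun a b => hB a b l hl z hz) q)
  rw [e2] at key
  have k0 := key (eqv N (a, b, 0)) l hl
  have k1 := key (eqv N (a, b, 1)) l hl
  have v0 : vec K (eqv N (a, b, 0)) = fun z => cm 0 (K z a b) := by
    funext z
    simp only [vec, Equiv.symm_apply_apply]
  have v1 : vec K (eqv N (a, b, 1)) = fun z => cm 1 (K z a b) := by
    funext z
    simp only [vec, Equiv.symm_apply_apply]
  rw [v0] at k0
  rw [v1] at k1
  have k2 := ifd_ri ((hK a b).contDiffAt (hbo.mem_nhds hz0)) k0 k1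
  rw [mul_assoc]
  exact k2

/-- **IntN** in terms of `lam`. -/
theorem intL (n N : ℕ) : ∃ (k : ℕ) (ε C : ℝ), 0 < ε ∧ 0 < C ∧ ∀ (d : PD n N) (G : Set (V n)),
    NrmN k ε d G → ∀ (z₀ : VV n) (lam : ℝ), 1 ≤ lam → ∀ K F : KC n N,
    SmK (Metric.ball z₀ (2 / lam)) K → SmK (Metric.ball z₀ (2 / lam)) F →
    (∀ z ∈ Metric.ball z₀ (2 / lam), LxK d K z + RyK d K z = F z) →
    IntegrableOn (fun z => nq (K z)) (Metric.ball z₀ (2 / lam)) → ∀ B : ℝ,
    (∀ a b, ∀ l ≤ k, ∀ z ∈ Metric.ball z₀ (2 / lam),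
      ‖iteratedFDeriv ℝ l (fun z => F z a b) z‖ ≤ B * lam ^ l) →
    ∀ a b, ∀ l ≤ 2, ‖iteratedFDeriv ℝ l (fun z => K z a b) z₀‖ ≤
      C * (lam ^ (n + l) * √(∫ z in Metric.ball z₀ (2 / lam), nq (K z)) + B * lam ^ l / lam ^ 2)
      := by
  obtain ⟨k, ε, C, hε, hC, h⟩ := intKL n N
  obtain ⟨C₁, δ₁, hC₁, hδ₁, hδ1, hco⟩ := bd_co n N k
  refine ⟨k + 1, min (min ε 1) (min δ₁ (1 / C₁)), C, by positivity, hC, ?_⟩
  intro d G hN
  have a1 : min (min ε 1) (min δ₁ (1 / C₁)) ≤ ε := (min_le_left _ _).trans (min_le_left _ _)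
  have a2 : min (min ε 1) (min δ₁ (1 / C₁)) ≤ 1 := (min_le_left _ _).trans (min_le_right _ _)
  have a3 : min (min ε 1) (min δ₁ (1 / C₁)) ≤ δ₁ := (min_le_right _ _).trans (min_le_left _ _)
  have a4 : min (min ε 1) (min δ₁ (1 / C₁)) ≤ 1 / C₁ := (min_le_right _ _).trans (min_le_right _ _)
  have a0 : 0 ≤ min (min ε 1) (min δ₁ (1 / C₁)) := by positivity
  have hr := hN.rp.rl
  obtain ⟨-, -, -, -, b2s, -, b2c⟩ := hco _ a0 a3 _ _ _ _ hr.d₂
  have a5 : C₁ * min (min ε 1) (min δ₁ (1 / C₁)) ≤ 1 := by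
    rw [le_div_iff₀ hC₁] at a4
    linarith
  intro z₀ lam hlam K F hK hF hE hni B hB
  exact h d.s₁ d.s₂ d.β (b2 d) hr.d₁.ss hr.d₂.ss
    (fun i j => cl_le' (hr.d₁.cs i j) (Nat.le_succ k) a1)
    (fun i j => cl_le' (hr.d₂.cs i j) (Nat.le_succ k) a1) hr.sβ b2s
    (fun i => clC_mono (hr.cβ i) (Nat.le_succ k) a2) (fun i => clC_mono (b2c i) le_rfl a5)
    z₀ lam hlam K F hK hF hE hni B fun a b l hl => hB a b l (hl.trans (Nat.le_succ k))

end Vale.Agent.P088.S4.H935
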